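import Vale.Agent.P146.R2.H952.Sharp
import Vale.Agent.P146.H695.VL

/-!
# P146 / P150: the free energy at the critical temperature is close to its annealed value

At `β = 1` the difference `log E Z - E F` and the standard deviation of `F` are at most powers of
`log n`.
-/

open MeasureTheory ProbabilityTheory Filter Topology

namespace Vale.Agent.P146.H357.Cr

open Vale.Agent.P146 Vale.Agent.P146.Ub.Cv Vale.Agent.P146.H605 Vale.Agent.P146.R2.H952

/-- the difference of the annealed and the mean free energy at `β = 1` -/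
noncomputable def dd (n : ℕ) : ℝ :=
  n * Real.log 2 + 1 / 4 * ((n : ℝ) - 1) - ∫ g, freeEnergy n 1 g ∂(disorder n)

lemma dd_nonneg (n : ℕ) (hn : 1 ≤ n) : 0 ≤ dd n := by
  have h := mean_upper n 1 hn
  unfold dd
  norm_num at h
  linarith

lemma mean_one (n : ℕ) (hn : 1 ≤ n) : ∫ g, Real.exp (freeEnergy n 1 g) ∂(disorder n) =
    Real.exp (n * Real.log 2 + 1 / 4 * ((n : ℝ) - 1)) := by
  rw [mean_Z n 1 hn, Real.exp_add, ← Real.log_pow, Real.exp_log (by positivity)]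
  norm_num

/-- the profile of the variance at `β = 1` -/
lemma prof_le (n : ℕ) (hn : 1 ≤ n) {a : ℝ} (h0 : 0 ≤ a) (h1 : a < 1) :
    (1 - a) * ((1 : ℝ) ^ 2 / 2 * (n * crossOverlap n 1 a - 1)) ≤ 2 * dd n := by
  obtain ⟨θ, hθ⟩ : ∃ θ, θ = Real.arccos (Real.sqrt a) := ⟨_, rfl⟩
  have hr := reg_freeEnergy n 1
  have h := total_ineq (lin_freeEnergy n 1)
    (fun p => Lin.of_bounded (hr.G_dom p).cont _ (hr.G_bd p)) hr.G_bd (tangent_freeEnergy n 1)
    (c := Real.cos θ) (s := Real.sin θ)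
    (by rw [add_comm]; exact Real.sin_sq_add_cos_sq θ) (zero_le_one (α := ℝ))
  rw [← phi_eq hr.G_dom] at h
  simp only [one_mul, one_pow] at h
  have h2 : ∫ g, Real.exp (freeEnergy n 1 g) ∂(gpi (Pair n)) =
      Real.exp (n * Real.log 2 + 1 / 4 * ((n : ℝ) - 1)) := mean_one n hn
  rw [h2, Real.exp_le_exp] at h
  have h3 := prof_eq_phi n 1 hn h0 h1.le
  rw [← hθ] at h3
  unfold prof at h3
  rw [h3]
  have h4 : Real.sin θ ^ 2 = 1 - a := by
    rw [Real.sin_sq, hθ, Real.cos_arccos (by linarith [Real.sqrt_nonneg a])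
      (Real.sqrt_le_one.2 h1.le), Real.sq_sqrt h0]
  rw [h4] at h
  unfold dd
  have h5 : ∫ g, freeEnergy n 1 g ∂(disorder n) = ∫ g, freeEnergy n 1 g ∂(gpi (Pair n)) := rfl
  rw [h5]
  linarith

lemma var_le (n : ℕ) (hn : 1 ≤ n) :
    Var[freeEnergy n 1; disorder n] ≤ 2 * dd n * Real.log n + 1 / 2 := by
  have h := var_le_of_prof n 1 hn (A := 2 * dd n) fun a h0 h1 => prof_le n hn h0 h1
  norm_num at h ⊢
  linarith

lemma ww_le (n : ℕ) (hn : 1 ≤ n) (σ τ : Fin n → ℤˣ) : ww n σ τ ≤ n := by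
  have hn0 : (0 : ℝ) < n := by exact_mod_cast hn
  have h1 : |∑ i, ((σ i : ℤ) : ℝ) * ((τ i : ℤ) : ℝ)| ≤ n := by
    refine (Finset.abs_sum_le_sum_abs _ _).trans ?_
    have : ∀ i, |((σ i : ℤ) : ℝ) * ((τ i : ℤ) : ℝ)| = 1 := by
      intro i
      rcases Int.units_eq_one_or (σ i) with h | h <;>
        rcases Int.units_eq_one_or (τ i) with h' | h' <;> simp [h, h']
    simp [this]
  have h2 : |overlap n σ τ| ≤ 1 := by
    unfold overlap
    rw [abs_div, abs_of_pos hn0, div_le_one hn0]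
    exact h1
  have h3 : overlap n σ τ ^ 2 ≤ 1 := by
    rw [← sq_abs]
    exact pow_le_one₀ (abs_nonneg _) h2
  unfold ww
  nlinarith

/-- the second moment of the partition function at `β = 1` -/
lemma second_one (n : ℕ) (hn : 1 ≤ n) :
    ∫ g, Real.exp (freeEnergy n 1 g) ^ 2 ∂(disorder n) ≤
      Real.sqrt n * (∫ g, Real.exp (freeEnergy n 1 g) ∂(disorder n)) ^ 2 := by
  have hn1 : (1 : ℝ) ≤ n := by exact_mod_cast hn
  have hn0 : (0 : ℝ) < n := by linarith
  rw [mean_Z n 1 hn]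
  simp_rw [sq_Z]
  rw [integral_finsetSum _ fun σ _ => integrable_finsetSum _ fun τ _ => (int_exp n _).1]
  obtain ⟨l, hl⟩ : ∃ l : ℝ, l = 1 / 2 * (1 - 1 / n) := ⟨_, rfl⟩
  have hin : (1 : ℝ) / n ≤ 1 := by rw [div_le_one hn0]; exact hn1
  have hin0 : (0 : ℝ) < 1 / n := by positivity
  have hl0 : 0 ≤ l := by rw [hl]; linarith
  have hl1 : l < 1 / 2 := by rw [hl]; linarith
  have e1 : ∀ σ τ : Fin n → ℤˣ, ∫ g, Real.exp (∑ p, (ska n 1 σ p + ska n 1 τ p) * g p)
      ∂(disorder n) ≤ Real.exp (1 / 2 * (n - 1)) * Real.exp (l * ww n σ τ) := by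
    intro σ τ
    rw [(int_exp n _).2, ← Real.exp_add, Real.exp_le_exp]
    have e2 : ∑ p, (ska n 1 σ p + ska n 1 τ p) ^ 2 =
        ∑ p, ska n 1 σ p ^ 2 + ∑ p, ska n 1 τ p ^ 2 + 2 * ∑ p, ska n 1 σ p * ska n 1 τ p := by
      rw [Finset.mul_sum, ← Finset.sum_add_distrib, ← Finset.sum_add_distrib]
      exact Finset.sum_congr rfl fun p _ => by ring
    rw [e2, ska_sq n 1 hn, ska_sq n 1 hn, ska_inner n 1 hn]
    have h1 := ww_le n hn σ τ
    have h2 : 1 / (n : ℝ) * ww n σ τ ≤ 1 := by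
      rw [one_div, inv_mul_le_iff₀ hn0]
      linarith
    rw [hl]
    nlinarith
  have e3 : ∑ σ : Fin n → ℤˣ, ∫ g, ∑ τ : Fin n → ℤˣ,
      Real.exp (∑ p, (ska n 1 σ p + ska n 1 τ p) * g p) ∂(disorder n) ≤
      Real.exp (1 / 2 * (n - 1)) *
        ∑ σ : Fin n → ℤˣ, ∑ τ : Fin n → ℤˣ, Real.exp (l * ww n σ τ) := by
    rw [Finset.mul_sum]
    refine Finset.sum_le_sum fun σ _ => ?_
    rw [integral_finsetSum _ fun τ _ => (int_exp n _).1, Finset.mul_sum]
    exact Finset.sum_le_sum fun τ _ => e1 σ τ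
  refine e3.trans ?_
  have h4 := rad_sq_gen n hn hl0 hl1
  have e5 : 1 - 2 * l = (n : ℝ)⁻¹ := by
    rw [hl]
    field_simp
    ring
  rw [e5, Real.sqrt_inv, one_div, inv_inv] at h4
  refine (mul_le_mul_of_nonneg_left h4 (Real.exp_pos _).le).trans (le_of_eq ?_)
  have e6 : Real.exp (1 ^ 2 / 4 * ((n : ℝ) - 1)) ^ 2 = Real.exp (1 / 2 * ((n : ℝ) - 1)) := by
    rw [← Real.exp_nat_mul]
    congr 1
    push_cast
    ring
  have e7 : ((2 : ℝ) ^ n) ^ 2 = 4 ^ n := by
    rw [← pow_mul, mul_comm, pow_mul]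
    norm_num
  rw [mul_pow, e6, e7]
  ring

/-- the mean of a logarithm from its exponential moments -/
theorem pz {Ω : Type*} [MeasurableSpace Ω] {μ : Measure Ω} [IsProbabilityMeasure μ] {F : Ω → ℝ}
    (h1 : Integrable (fun w => Real.exp (F w)) μ)
    (h2 : Integrable (fun w => Real.exp (F w) ^ 2) μ) {K M x m : ℝ} (hK : 0 < K) (hx : 0 ≤ x)
    (hMd : ∫ w, Real.exp (F w) ∂μ = Real.exp M)
    (h3 : Integrable (fun w => Real.exp (x * |F w - m|)) μ)
    (h4 : ∫ w, Real.exp (x * |F w - m|) ∂μ ≤ 7)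
    (hM : ∫ w, Real.exp (F w) ^ 2 ∂μ ≤ K * (∫ w, Real.exp (F w) ∂μ) ^ 2) :
    x * (M - m - Real.log 2) ≤ Real.log (28 * K) := by
  obtain ⟨E, hE⟩ : ∃ E, E = Real.exp M := ⟨_, rfl⟩
  have hE0 : 0 < E := by rw [hE]; exact Real.exp_pos _
  rw [hMd, ← hE] at hM
  obtain ⟨Δ, hΔ⟩ : ∃ Δ, Δ = M - m - Real.log 2 := ⟨_, rfl⟩
  rw [← hΔ]
  obtain ⟨a, ha⟩ : ∃ a, a = 1 / (2 * K * E) := ⟨_, rfl⟩
  have ha0 : 0 < a := by rw [ha]; positivity
  have pt : ∀ w, Real.exp (F w) ≤ E / 2 + (a / 2 * Real.exp (F w) ^ 2 +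
      1 / (2 * a) * Real.exp (-(x * Δ)) * Real.exp (x * |F w - m|)) := by
    intro w
    have hp : 0 < Real.exp (F w) := Real.exp_pos _
    rcases le_or_gt (F w) (M - Real.log 2) with h | h
    · have h5 : Real.exp (F w) ≤ E / 2 := by
        refine (Real.exp_le_exp.2 h).trans (le_of_eq ?_)
        rw [Real.exp_sub, Real.exp_log two_pos, hE]
      have h6 : 0 ≤ a / 2 * Real.exp (F w) ^ 2 +
        1 / (2 * a) * Real.exp (-(x * Δ)) * Real.exp (x * |F w - m|) := by positivity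
      linarith
    · have h5 : Δ ≤ |F w - m| := by
        refine le_trans ?_ (le_abs_self _)
        rw [hΔ]; linarith
      have h6 : 1 ≤ Real.exp (-(x * Δ)) * Real.exp (x * |F w - m|) := by
        rw [← Real.exp_add]
        refine Real.one_le_exp ?_
        have := mul_le_mul_of_nonneg_left h5 hx
        linarith
      have h7 : Real.exp (F w) ≤ a / 2 * Real.exp (F w) ^ 2 + 1 / (2 * a) := by
        have h8 : a / 2 * Real.exp (F w) ^ 2 + 1 / (2 * a) - Real.exp (F w) =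
            (a * Real.exp (F w) - 1) ^ 2 / (2 * a) := by
          field_simp
          ring
        have h9 : 0 ≤ (a * Real.exp (F w) - 1) ^ 2 / (2 * a) := by positivity
        linarith
      have h10 : 1 / (2 * a) * 1 ≤ 1 / (2 * a) *
          (Real.exp (-(x * Δ)) * Real.exp (x * |F w - m|)) :=
        mul_le_mul_of_nonneg_left h6 (by positivity)
      have h11 : 0 < E / 2 := by positivity
      rw [← mul_assoc] at h10
      linarith
  have i1 : Integrable (fun w => a / 2 * Real.exp (F w) ^ 2) μ := h2.const_mul _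
  have i2 : Integrable (fun w => 1 / (2 * a) * Real.exp (-(x * Δ)) *
      Real.exp (x * |F w - m|)) μ := h3.const_mul _
  have i3 : Integrable (fun w => a / 2 * Real.exp (F w) ^ 2 +
      1 / (2 * a) * Real.exp (-(x * Δ)) * Real.exp (x * |F w - m|)) μ := i1.add i2
  have hi := integral_mono h1 ((integrable_const (E / 2)).add i3) pt
  have e1 : ∫ w, (E / 2 + (a / 2 * Real.exp (F w) ^ 2 +
      1 / (2 * a) * Real.exp (-(x * Δ)) * Real.exp (x * |F w - m|))) ∂μ =
      E / 2 + (a / 2 * ∫ w, Real.exp (F w) ^ 2 ∂μ +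
        1 / (2 * a) * Real.exp (-(x * Δ)) * ∫ w, Real.exp (x * |F w - m|) ∂μ) := by
    rw [integral_add (integrable_const _) i3, integral_add i1 i2, integral_const_mul,
      integral_const_mul]
    simp
  have hi2 : E ≤ E / 2 + (a / 2 * ∫ w, Real.exp (F w) ^ 2 ∂μ +
        1 / (2 * a) * Real.exp (-(x * Δ)) * ∫ w, Real.exp (x * |F w - m|) ∂μ) := by
    rw [← e1]
    rw [hMd, ← hE] at hi
    exact hi
  have h5 : a / 2 * ∫ w, Real.exp (F w) ^ 2 ∂μ ≤ E / 4 := by
    refine (mul_le_mul_of_nonneg_left hM (by positivity)).trans (le_of_eq ?_)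
    rw [ha]
    field_simp
    ring
  have h6 : 1 / (2 * a) * Real.exp (-(x * Δ)) * ∫ w, Real.exp (x * |F w - m|) ∂μ ≤
      7 * K * E * Real.exp (-(x * Δ)) := by
    refine (mul_le_mul_of_nonneg_left h4 (by positivity)).trans (le_of_eq ?_)
    rw [ha]
    field_simp
  have h7 : E / 4 ≤ 7 * K * E * Real.exp (-(x * Δ)) := by linarith
  have h8 : Real.exp (x * Δ) ≤ 28 * K := by
    have h9 : E / 4 * Real.exp (x * Δ) ≤ 7 * K * E * Real.exp (-(x * Δ)) * Real.exp (x * Δ) :=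
      mul_le_mul_of_nonneg_right h7 (Real.exp_pos _).le
    have h10 : 7 * K * E * Real.exp (-(x * Δ)) * Real.exp (x * Δ) = 7 * K * E := by
      rw [mul_assoc, ← Real.exp_add]
      simp
    rw [h10] at h9
    have h11 : E / 4 * Real.exp (x * Δ) ≤ E / 4 * (28 * K) := by linarith
    exact le_of_mul_le_mul_left h11 (by positivity)
  exact (Real.le_log_iff_exp_le (by positivity)).2 h8

lemma dd_le (n : ℕ) (hn : 1 ≤ n) : dd n ≤ Real.log 2 +
    18 * (1 + √Var[freeEnergy n 1; disorder n]) * Real.log (28 * √n) := by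
  have hn0 : (0 : ℝ) < n := by exact_mod_cast hn
  obtain ⟨s, hs⟩ : ∃ s, s = √Var[freeEnergy n 1; disorder n] := ⟨_, rfl⟩
  have hs0 : 0 ≤ s := by rw [hs]; exact Real.sqrt_nonneg _
  rw [← hs]
  obtain ⟨x, hx⟩ : ∃ x, x = 1 / (18 * (1 + s)) := ⟨_, rfl⟩
  have hx0 : 0 < x := by rw [hx]; positivity
  have hx1 : x * (18 * (1 + s)) ≤ 1 := by
    rw [hx]
    field_simp
    exact le_rfl
  have : IsProbabilityMeasure (disorder n) := by
    rw [disorder_eq]; infer_instance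
  have lF := lin_freeEnergy n 1
  rw [hs] at hx1
  obtain ⟨i1, b1⟩ := Vale.Agent.P146.H695.exp_abs n 1 hx0.le hx1
  have h := pz (μ := disorder n) (F := freeEnergy n 1) lF.dom_exp.integrable
    (lF.dom_exp.pow 2).integrable (K := √n) (M := n * Real.log 2 + 1 / 4 * ((n : ℝ) - 1))
    (by positivity) hx0.le (mean_one n hn) i1 b1 (second_one n hn)
  have h2 : n * Real.log 2 + 1 / 4 * ((n : ℝ) - 1) - ∫ g, freeEnergy n 1 g ∂(disorder n) =
      dd n := rfl
  rw [h2] at h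
  rw [hx] at h
  have h3 : 18 * (1 + s) * (1 / (18 * (1 + s)) * (dd n - Real.log 2)) ≤
      18 * (1 + s) * Real.log (28 * √n) := mul_le_mul_of_nonneg_left h (by positivity)
  have h4 : 18 * (1 + s) * (1 / (18 * (1 + s)) * (dd n - Real.log 2)) = dd n - Real.log 2 := by
    field_simp
  rw [h4] at h3
  linarith

/-- the variance and the annealed gap at `β = 1` are polylogarithmic -/
lemma polylog (n : ℕ) (hn : 784 ≤ n) :
    √Var[freeEnergy n 1; disorder n] ≤ 75 * Real.log n ^ 2 ∧ dd n ≤ 1400 * Real.log n ^ 3 := by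
  have hn1 : 1 ≤ n := by omega
  have hnr : (784 : ℝ) ≤ n := by exact_mod_cast hn
  have hn0 : (0 : ℝ) < n := by linarith
  obtain ⟨s, hs⟩ : ∃ s, s = √Var[freeEnergy n 1; disorder n] := ⟨_, rfl⟩
  have hs0 : 0 ≤ s := by rw [hs]; exact Real.sqrt_nonneg _
  obtain ⟨L, hL⟩ : ∃ L, L = Real.log n := ⟨_, rfl⟩
  have hL1 : 1 ≤ L := by
    rw [hL, Real.le_log_iff_exp_le hn0]
    have := Real.exp_one_lt_d9
    linarith
  have hl28 : Real.log (28 * √n) ≤ L := by
    rw [hL]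
    refine Real.log_le_log (by positivity) ?_
    have h1 : (28 : ℝ) ≤ √n := Real.le_sqrt_of_sq_le (by norm_num; linarith)
    calc 28 * √(n : ℝ) ≤ √n * √n := mul_le_mul_of_nonneg_right h1 (Real.sqrt_nonneg _)
      _ = n := Real.mul_self_sqrt hn0.le
  have hlog2 : Real.log 2 ≤ 1 := by
    have := Real.log_two_lt_d9
    linarith
  have h1 := dd_le n hn1
  have h2 := var_le n hn1
  rw [← hs] at h1
  rw [← hL] at h2
  have hV : s ^ 2 = Var[freeEnergy n 1; disorder n] := by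
    rw [hs]; exact Real.sq_sqrt (variance_nonneg _ _)
  rw [← hV] at h2
  have h3 : dd n ≤ 1 + 18 * (1 + s) * L := by
    have := mul_le_mul_of_nonneg_left hl28 (show 0 ≤ 18 * (1 + s) by positivity)
    linarith
  have hL0 : 0 < L := by linarith
  have h4 : s ^ 2 ≤ 39 * L ^ 2 + 36 * L ^ 2 * s := by
    have h5 : 2 * dd n * L ≤ 2 * (1 + 18 * (1 + s) * L) * L := by gcongr
    have h6 : 2 * (1 + 18 * (1 + s) * L) * L = 2 * L + 36 * L ^ 2 + 36 * L ^ 2 * s := by ring
    rw [h6] at h5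
    have h7 : L ≤ L ^ 2 := by nlinarith
    have h8 : 1 ≤ L ^ 2 := by nlinarith
    linarith
  have h5 : s ≤ 75 * L ^ 2 := by
    have h8 : 1 ≤ L ^ 2 := by nlinarith
    by_contra hcon
    push Not at hcon
    have h9 : 1 ≤ s := by linarith
    have h10 : s * (s - 75 * L ^ 2) > 0 := mul_pos (by linarith) (by linarith)
    nlinarith
  rw [← hs, ← hL]
  refine ⟨h5, h3.trans ?_⟩
  have h6 : 18 * (1 + s) * L ≤ 18 * (L ^ 2 + 75 * L ^ 2) * L := by
    have h8 : 1 ≤ L ^ 2 := by nlinarith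
    gcongr
  have h7 : 1 ≤ L ^ 3 := one_le_pow₀ hL1
  nlinarith

/-- **The free energy at `β = 1`**: for every `δ > 0` it is at least `log E Z - n ^ δ` with high
probability. -/
theorem low_free {δ : ℝ} (hδ : 0 < δ) :
    Tendsto (fun n : ℕ => (disorder n).real {g | freeEnergy n 1 g ≤
      n * Real.log 2 + 1 / 4 * ((n : ℝ) - 1) - (n : ℝ) ^ δ}) atTop (𝓝 0) := by
  have a1 : ∀ᶠ n : ℕ in atTop, Real.log n ≤ (n : ℝ) ^ (δ / 8) := by
    have h := (isLittleO_log_rpow_atTop (show 0 < δ / 8 by linarith)).bound one_pos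
    have h2 := tendsto_natCast_atTop_atTop (R := ℝ) |>.eventually h
    filter_upwards [h2, eventually_ge_atTop 1] with n h3 hn
    have hn1 : (1 : ℝ) ≤ n := by exact_mod_cast hn
    rw [one_mul, Real.norm_of_nonneg (Real.log_nonneg hn1),
      Real.norm_of_nonneg (by positivity)] at h3
    exact h3
  have a2 : Tendsto (fun n : ℕ => (n : ℝ) ^ (5 * δ / 8)) atTop atTop :=
    (tendsto_rpow_atTop (by linarith)).comp tendsto_natCast_atTop_atTop
  have a3 : Tendsto (fun n : ℕ => 22500 * (n : ℝ) ^ (-(3 * δ / 2))) atTop (𝓝 0) := by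
    have h := ((tendsto_rpow_neg_atTop (show 0 < 3 * δ / 2 by linarith)).comp
      tendsto_natCast_atTop_atTop).const_mul (22500 : ℝ)
    simpa using h
  refine squeeze_zero' (Eventually.of_forall fun n => measureReal_nonneg) ?_ a3
  filter_upwards [a1, a2.eventually_ge_atTop 2800, eventually_ge_atTop 784] with n h1 h2 hn
  have hn1 : 1 ≤ n := by omega
  have hnr : (784 : ℝ) ≤ n := by exact_mod_cast hn
  have hn0 : (0 : ℝ) < n := by linarith
  have : IsProbabilityMeasure (disorder n) := by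
    rw [disorder_eq]; infer_instance
  obtain ⟨b1, b2⟩ := polylog n hn
  obtain ⟨y, hy⟩ : ∃ y, y = (n : ℝ) ^ (δ / 8) := ⟨_, rfl⟩
  have hy0 : 0 < y := by rw [hy]; positivity
  have hL0 : 0 ≤ Real.log n := Real.log_nonneg (by linarith)
  have hL3 : Real.log n ^ 3 ≤ y ^ 3 := by rw [hy]; exact pow_le_pow_left₀ hL0 h1 3
  have hL2 : Real.log n ^ 2 ≤ y ^ 2 := by rw [hy]; exact pow_le_pow_left₀ hL0 h1 2
  have hyd : (n : ℝ) ^ δ = y ^ 8 := by
    rw [hy, ← Real.rpow_natCast, ← Real.rpow_mul hn0.le]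
    congr 1
    push_cast
    ring
  have hy5 : (n : ℝ) ^ (5 * δ / 8) = y ^ 5 := by
    rw [hy, ← Real.rpow_natCast, ← Real.rpow_mul hn0.le]
    congr 1
    push_cast
    ring
  rw [hy5] at h2
  have hdd : dd n ≤ y ^ 8 / 2 := by
    have h3 : 2800 * y ^ 3 ≤ y ^ 5 * y ^ 3 := mul_le_mul_of_nonneg_right h2 (by positivity)
    have h4 : y ^ 5 * y ^ 3 = y ^ 8 := by ring
    linarith
  have hsub : {g | freeEnergy n 1 g ≤
      n * Real.log 2 + 1 / 4 * ((n : ℝ) - 1) - (n : ℝ) ^ δ} ⊆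
      {g | y ^ 8 / 2 ≤ |freeEnergy n 1 g - ∫ h, freeEnergy n 1 h ∂(disorder n)|} := by
    intro g hg
    simp only [Set.mem_ofPred_eq] at hg ⊢
    rw [hyd] at hg
    have h5 : dd n = n * Real.log 2 + 1 / 4 * ((n : ℝ) - 1) -
      ∫ g, freeEnergy n 1 g ∂(disorder n) := rfl
    rw [abs_sub_comm]
    refine le_trans ?_ (le_abs_self _)
    linarith
  have hmem : MemLp (freeEnergy n 1) 2 (disorder n) := by
    have hd := freeEnergy_dom n 1
    rw [disorder_eq]
    rw [memLp_two_iff_integrable_sq hd.cont.aestronglyMeasurable]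
    exact (hd.pow 2).integrable
  have hch := meas_ge_le_variance_div_sq hmem (c := y ^ 8 / 2) (by positivity)
  have hVp : Var[freeEnergy n 1; disorder n] ≤ (75 * y ^ 2) ^ 2 := by
    rw [← Real.sq_sqrt (variance_nonneg (freeEnergy n 1) (disorder n))]
    refine pow_le_pow_left₀ (Real.sqrt_nonneg _) (b1.trans ?_) 2
    linarith
  have h6 : (disorder n).real {g | y ^ 8 / 2 ≤
      |freeEnergy n 1 g - ∫ h, freeEnergy n 1 h ∂(disorder n)|} ≤
      Var[freeEnergy n 1; disorder n] / (y ^ 8 / 2) ^ 2 := by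
    unfold Measure.real
    refine ENNReal.toReal_le_of_le_ofReal ?_ hch
    exact div_nonneg (variance_nonneg _ _) (sq_nonneg _)
  refine (measureReal_mono hsub).trans (h6.trans ?_)
  have hfin : (n : ℝ) ^ (-(3 * δ / 2)) = 1 / y ^ 12 := by
    rw [Real.rpow_neg hn0.le, one_div]
    congr 1
    rw [hy, ← Real.rpow_natCast, ← Real.rpow_mul hn0.le]
    congr 1
    push_cast
    ring
  rw [hfin]
  calc Var[freeEnergy n 1; disorder n] / (y ^ 8 / 2) ^ 2
      ≤ (75 * y ^ 2) ^ 2 / (y ^ 8 / 2) ^ 2 := by gcongr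
    _ = 22500 * (1 / y ^ 12) := by
        field_simp
        norm_num

end Vale.Agent.P146.H357.Cr
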