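import Vale.Agent.P150.Defs
import Vale.Agent.P150.H357.Cr.LowF

/-!
# P150: the partition function at the critical temperature is not much below its mean
-/

open MeasureTheory ProbabilityTheory Filter Topology

namespace Vale.Agent.P150.H357.Cr

variable {n : ℕ}

/-- the spin as a unit of `ℤ` -/
def eB : Bool ≃ ℤˣ where
  toFun s := if s then 1 else -1
  invFun v := decide (v = 1)
  left_inv s := by cases s <;> decide
  right_inv v := by
    rcases Int.units_eq_one_or v with h | h <;> rw [h] <;> decide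

/-- the configuration with values in the units of `ℤ` -/
def eC (n : ℕ) : Cfg n ≃ (Fin n → ℤˣ) := Equiv.arrowCongr (Equiv.refl _) eB

lemma eC_apply (x : Cfg n) (i : Fin n) : eC n x i = eB (x i) := rfl

lemma cast_eB (s : Bool) : ((eB s : ℤ) : ℝ) = sp s := by
  cases s <;> simp [eB, sp]

lemma energy_ham (g : Pairs n → ℝ) (x : Cfg n) :
    energy (skJ 1 g) 0 x = 1 * P146.hamiltonian n g (eC n x) := by
  unfold energy
  have h2 : ∑ i : Fin n, (0 : Fin n → ℝ) i * sp (x i) = 0 := by simp
  rw [h2, add_zero, ← Fintype.sum_prod_type', ← Finset.sum_filter]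
  rw [Finset.sum_subtype (p := fun p : Fin n × Fin n => p.1 < p.2) _ (fun p => by simp)
    (fun p : Fin n × Fin n => skJ 1 g p.1 p.2 * sp (x p.1) * sp (x p.2))]
  unfold P146.hamiltonian
  rw [one_mul, Finset.mul_sum]
  refine Finset.sum_congr rfl fun p _ => ?_
  rw [eC_apply, eC_apply, cast_eB, cast_eB]
  unfold skJ gsym
  rw [dif_pos p.2]
  ring

lemma Z_eq (g : Pairs n → ℝ) :
    ∑ y : Cfg n, Real.exp (energy (skJ 1 g) 0 y) = Real.exp (P146.freeEnergy n 1 g) := by
  rw [P146.R2.H952.exp_free]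
  unfold P146.partitionFn
  rw [← Equiv.sum_comp (eC n)]
  exact Finset.sum_congr rfl fun y _ => by rw [energy_ham]

/-- **Row A.** For every `d > 0` the partition function at `β = 1` is at least
`exp (- n ^ d) E Z` with high probability. -/
theorem low_Z {d : ℝ} (hd : 0 < d) :
    Tendsto (fun n : ℕ => (disorder n).real {g : Pairs n → ℝ |
      ∑ x : Cfg n, Real.exp (energy (skJ 1 g) 0 x) <
        Real.exp (-((n : ℝ) ^ d)) * (2 ^ n * Real.exp (((n : ℝ) - 1) / 4))}) atTop (𝓝 0) := by
  refine squeeze_zero (fun n => measureReal_nonneg) (fun n => ?_) (P146.H357.Cr.low_free hd)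
  have : IsProbabilityMeasure (P146.disorder n) := by
    unfold P146.disorder; infer_instance
  have hsub : {g : Pairs n → ℝ | ∑ x : Cfg n, Real.exp (energy (skJ 1 g) 0 x) <
      Real.exp (-((n : ℝ) ^ d)) * (2 ^ n * Real.exp (((n : ℝ) - 1) / 4))} ⊆
      {g | P146.freeEnergy n 1 g ≤
        n * Real.log 2 + 1 / 4 * ((n : ℝ) - 1) - (n : ℝ) ^ d} := by
    intro g hg
    have hg' : ∑ x : Cfg n, Real.exp (energy (skJ 1 g) 0 x) <
      Real.exp (-((n : ℝ) ^ d)) * (2 ^ n * Real.exp (((n : ℝ) - 1) / 4)) := hg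
    have h2 : (2 : ℝ) ^ n = Real.exp (n * Real.log 2) := by
      rw [← Real.log_pow, Real.exp_log (by positivity)]
    rw [Z_eq, h2, ← Real.exp_add, ← Real.exp_add, Real.exp_lt_exp] at hg'
    show P146.freeEnergy n 1 g ≤ n * Real.log 2 + 1 / 4 * ((n : ℝ) - 1) - (n : ℝ) ^ d
    linarith
  exact measureReal_mono (μ := P146.disorder n) hsub

end Vale.Agent.P150.H357.Cr
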