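import Mathlib
import Vale.Agent.P150.H425.CrLim

/-! The SK heat-bath dynamics at the critical point `β = 1`: the gap is at most
`C (log n) ^ 4 n ^ (-2/3)`. -/

open MeasureTheory ProbabilityTheory Filter Topology

namespace Vale.Agent.P146.H357.Cr

open Vale.Agent.P146

/-- the free energy at `β = 1` is at least `log E Z - 2000 (log n) ^ 3` -/
theorem low_free_log (n : ℕ) (hn : 784 ≤ n) :
    (disorder n).real {g | freeEnergy n 1 g ≤
      n * Real.log 2 + 1 / 4 * ((n : ℝ) - 1) - 2000 * Real.log n ^ 3} ≤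
      1 / (Real.log n) ^ 2 := by
  have hn1 : 1 ≤ n := by omega
  have hnr : (784 : ℝ) ≤ n := by exact_mod_cast hn
  have hn0 : (0 : ℝ) < n := by linarith
  have : IsProbabilityMeasure (disorder n) := by
    unfold disorder; infer_instance
  obtain ⟨b1, b2⟩ := polylog n hn
  obtain ⟨L, hL⟩ : ∃ L, L = Real.log n := ⟨_, rfl⟩
  have hL1 : 1 ≤ L := by
    rw [hL, Real.le_log_iff_exp_le hn0]
    have := Real.exp_one_lt_d9
    linarith
  rw [← hL] at b1 b2 ⊢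
  have hL0 : 0 < L := by linarith
  have hsub : {g | freeEnergy n 1 g ≤
      n * Real.log 2 + 1 / 4 * ((n : ℝ) - 1) - 2000 * L ^ 3} ⊆
      {g | 600 * L ^ 3 ≤ |freeEnergy n 1 g - ∫ h, freeEnergy n 1 h ∂(disorder n)|} := by
    intro g hg
    have hg' : freeEnergy n 1 g ≤
      n * Real.log 2 + 1 / 4 * ((n : ℝ) - 1) - 2000 * L ^ 3 := hg
    show 600 * L ^ 3 ≤ |freeEnergy n 1 g - ∫ h, freeEnergy n 1 h ∂(disorder n)|
    have h5 : dd n = n * Real.log 2 + 1 / 4 * ((n : ℝ) - 1) -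
      ∫ g, freeEnergy n 1 g ∂(disorder n) := rfl
    rw [abs_sub_comm]
    refine le_trans ?_ (le_abs_self _)
    linarith
  have hmem : MemLp (freeEnergy n 1) 2 (disorder n) := by
    have hd := freeEnergy_dom n 1
    rw [H605.disorder_eq]
    rw [memLp_two_iff_integrable_sq hd.cont.aestronglyMeasurable]
    exact (hd.pow 2).integrable
  have hch := meas_ge_le_variance_div_sq hmem (c := 600 * L ^ 3) (by positivity)
  have hVp : Var[freeEnergy n 1; disorder n] ≤ (75 * L ^ 2) ^ 2 := by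
    rw [← Real.sq_sqrt (variance_nonneg (freeEnergy n 1) (disorder n))]
    exact pow_le_pow_left₀ (Real.sqrt_nonneg _) b1 2
  have h6 : (disorder n).real {g | 600 * L ^ 3 ≤
      |freeEnergy n 1 g - ∫ h, freeEnergy n 1 h ∂(disorder n)|} ≤
      Var[freeEnergy n 1; disorder n] / (600 * L ^ 3) ^ 2 := by
    unfold Measure.real
    refine ENNReal.toReal_le_of_le_ofReal ?_ hch
    exact div_nonneg (variance_nonneg _ _) (sq_nonneg _)
  refine (measureReal_mono hsub).trans (h6.trans ?_)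
  rw [div_le_div_iff₀ (by positivity) (by positivity)]
  have h7 : Var[freeEnergy n 1; disorder n] * L ^ 2 ≤ (75 * L ^ 2) ^ 2 * L ^ 2 :=
    mul_le_mul_of_nonneg_right hVp (by positivity)
  have h8 : (75 * L ^ 2) ^ 2 * L ^ 2 = 5625 * L ^ 6 := by ring
  have h9 : 1 * (600 * L ^ 3) ^ 2 = 360000 * L ^ 6 := by ring
  have h10 : 0 ≤ L ^ 6 := by positivity
  rw [h9]
  linarith

end Vale.Agent.P146.H357.Cr

namespace Vale.Agent.P150.H357.Cr

open Vale.Agent.P150.Cav Vale.Agent.P150.H185.Crit Vale.Agent.P150.H425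

/-- the partition function, logarithmic version -/
theorem low_Z_log (n : ℕ) (hn : 784 ≤ n) :
    (disorder n).real {g : Pairs n → ℝ |
      ∑ x : Cfg n, Real.exp (energy (skJ 1 g) 0 x) <
        Real.exp (-(2000 * Real.log n ^ 3)) * (2 ^ n * Real.exp (((n : ℝ) - 1) / 4))} ≤
      1 / (Real.log n) ^ 2 := by
  refine le_trans ?_ (P146.H357.Cr.low_free_log n hn)
  have : IsProbabilityMeasure (P146.disorder n) := by
    unfold P146.disorder; infer_instance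
  have hsub : {g : Pairs n → ℝ | ∑ x : Cfg n, Real.exp (energy (skJ 1 g) 0 x) <
      Real.exp (-(2000 * Real.log n ^ 3)) * (2 ^ n * Real.exp (((n : ℝ) - 1) / 4))} ⊆
      {g | P146.freeEnergy n 1 g ≤
        n * Real.log 2 + 1 / 4 * ((n : ℝ) - 1) - 2000 * Real.log n ^ 3} := by
    intro g hg
    have hg' : ∑ x : Cfg n, Real.exp (energy (skJ 1 g) 0 x) <
      Real.exp (-(2000 * Real.log n ^ 3)) * (2 ^ n * Real.exp (((n : ℝ) - 1) / 4)) := hg
    have h2 : (2 : ℝ) ^ n = Real.exp (n * Real.log 2) := by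
      rw [← Real.log_pow, Real.exp_log (by positivity)]
    rw [Z_eq, h2, ← Real.exp_add, ← Real.exp_add, Real.exp_lt_exp] at hg'
    show P146.freeEnergy n 1 g ≤
      n * Real.log 2 + 1 / 4 * ((n : ℝ) - 1) - 2000 * Real.log n ^ 3
    linarith
  exact measureReal_mono (μ := P146.disorder n) hsub

/-- the inequality at fixed `n` -/
theorem prob_log (n : ℕ) (hn : 784 ≤ n) {t L : ℝ} (hL : L = Real.log n) (ht : 0 < t)
    (ht1 : t ≤ 1 / 4) (hnt : (n : ℝ) * t ^ 3 = 40000 ^ 3 * L ^ 6) :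
    (disorder n).real {g | 100 * t ^ 2 ≤ gap (skJ 1 g) (fun _ => 0)} ≤
      2 * (1 / L ^ 2 + Real.exp (-(2000 * L ^ 3))) + 64 * (40000 ^ 3 * L ^ 6)⁻¹ ^ 2 := by
  have hn1 : 1 ≤ n := by omega
  have hn0 : 0 < n := by omega
  have hnr : (784 : ℝ) ≤ n := by exact_mod_cast hn
  have hn' : (0 : ℝ) < n := by linarith
  have hL1 : 1 ≤ L := by
    rw [hL, Real.le_log_iff_exp_le hn']
    have := Real.exp_one_lt_d9
    linarith
  have hL0 : 0 < L := by linarith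
  have hL3 : 1 ≤ L ^ 3 := one_le_pow₀ hL1
  have hL6 : L ^ 3 ≤ L ^ 6 := pow_le_pow_right₀ hL1 (by norm_num)
  obtain ⟨p, hp⟩ : ∃ p : ℕ, p = ⌈4000 * L ^ 3⌉₊ := ⟨_, rfl⟩
  have hp1 : 4000 * L ^ 3 ≤ (p : ℝ) := by rw [hp]; exact Nat.le_ceil _
  have hp2 : (p : ℝ) ≤ 4001 * L ^ 3 := by
    have h1 : (p : ℝ) < 4000 * L ^ 3 + 1 := by
      rw [hp]; exact Nat.ceil_lt_add_one (by positivity)
    linarith
  have hp0 : 1 ≤ p := by
    have h1 : (1 : ℝ) ≤ (p : ℝ) := by linarith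
    exact_mod_cast h1
  obtain ⟨u, huim, hnu, hnd, hu1, hus, hzim⟩ := param ht ht1 1
  obtain ⟨z1, hz1⟩ : ∃ z1 : ℂ, z1 = u + u⁻¹ := ⟨_, rfl⟩
  rw [← hz1] at hzim
  obtain ⟨z, hz⟩ : ∃ z : ℂ, z = z1 - (n : ℂ)⁻¹ := ⟨_, rfl⟩
  have hz1z : z1 = z + (n : ℂ)⁻¹ := by rw [hz]; ring
  have hzz : z.im = z1.im := by
    rw [hz1z, Complex.add_im]
    have : ((n : ℂ)⁻¹) = (((n : ℝ)⁻¹ : ℝ) : ℂ) := by push_cast; rfl
    rw [this, Complex.ofReal_im, add_zero]
  have hz1p : 0 < z1.im := lt_of_lt_of_le (by positivity) hzim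
  have hzp : 0 < z.im := by rw [hzz]; exact hz1p
  have hu0 : 0 < u.im := by rw [huim]; exact ht
  have hnd' : ‖u - 1‖ ^ 2 = 2 * t ^ 2 := by
    have : ((1 : ℝ) : ℂ) = 1 := Complex.ofReal_one
    rw [this] at hnd
    rw [hnd]; ring
  have hNpos : 0 < (n : ℝ) * t ^ 3 := by positivity
  have ha : (z1.im)⁻¹ * (n : ℝ)⁻¹ ≤ t / (n * t ^ 3) := by
    have h1 : (z1.im)⁻¹ * (n : ℝ)⁻¹ ≤ (t ^ 2)⁻¹ * (n : ℝ)⁻¹ :=
      mul_le_mul_of_nonneg_right (inv_anti₀ (by positivity) hzim) (by positivity)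
    refine h1.trans (le_of_eq ?_)
    field_simp
  have ha0 : 0 ≤ (z1.im)⁻¹ * (n : ℝ)⁻¹ := by positivity
  have hp48 : 48 * (p : ℝ) * ((z1.im)⁻¹ * (n : ℝ)⁻¹) ≤ u.im := by
    rw [huim]
    have h1 : 48 * (p : ℝ) * ((z1.im)⁻¹ * (n : ℝ)⁻¹) ≤ 48 * (p : ℝ) * (t / (n * t ^ 3)) :=
      mul_le_mul_of_nonneg_left ha (by positivity)
    refine h1.trans ?_
    rw [mul_div_assoc', div_le_iff₀ hNpos, hnt]
    have h2 : 48 * (p : ℝ) ≤ 40000 ^ 3 * L ^ 6 := by
      have h3 : 48 * (p : ℝ) ≤ 48 * (4001 * L ^ 3) := by linarith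
      have h4 : 0 ≤ L ^ 6 := by positivity
      linarith
    have h3 := mul_le_mul_of_nonneg_right h2 ht.le
    linarith
  have h1 := CrLim.rowB n u z1 p hu0 hu1 hus hz1 hz1p hn0 hp0 hp48
  have h2 : (614400 * (p : ℝ) ^ 2 * ((z1.im)⁻¹ * (n : ℝ)⁻¹) / u.im) ^ p ≤
      Real.exp (-(4000 * L ^ 3)) := by
    have h3 : 614400 * (p : ℝ) ^ 2 * ((z1.im)⁻¹ * (n : ℝ)⁻¹) / u.im ≤ Real.exp (-1) := by
      rw [huim, div_le_iff₀ ht]
      have h4 : 614400 * (p : ℝ) ^ 2 * ((z1.im)⁻¹ * (n : ℝ)⁻¹) ≤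
          614400 * (p : ℝ) ^ 2 * (t / (n * t ^ 3)) :=
        mul_le_mul_of_nonneg_left ha (by positivity)
      refine h4.trans ?_
      rw [mul_div_assoc', div_le_iff₀ hNpos, hnt]
      have h5 : (p : ℝ) ^ 2 ≤ (4001 * L ^ 3) ^ 2 :=
        pow_le_pow_left₀ (Nat.cast_nonneg p) hp2 2
      have h6 : (1 : ℝ) / 3 ≤ Real.exp (-1) := by
        rw [Real.exp_neg, one_div]
        refine inv_anti₀ (Real.exp_pos _) ?_
        have := Real.exp_one_lt_d9
        linarith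
      have h7 : 614400 * (p : ℝ) ^ 2 ≤ 1 / 3 * (40000 ^ 3 * L ^ 6) := by
        have h8 : 614400 * (p : ℝ) ^ 2 ≤ 614400 * (4001 * L ^ 3) ^ 2 := by linarith
        have h9 : 614400 * (4001 * L ^ 3) ^ 2 = 614400 * 4001 ^ 2 * L ^ 6 := by ring
        have h10 : 0 ≤ L ^ 6 := by positivity
        rw [h9] at h8
        nlinarith
      have h8 : 614400 * (p : ℝ) ^ 2 * t ≤ 1 / 3 * (40000 ^ 3 * L ^ 6) * t :=
        mul_le_mul_of_nonneg_right h7 ht.le
      have h9 : 1 / 3 * (40000 ^ 3 * L ^ 6) * t ≤ Real.exp (-1) * (40000 ^ 3 * L ^ 6) * t := by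
        refine mul_le_mul_of_nonneg_right ?_ ht.le
        exact mul_le_mul_of_nonneg_right h6 (by positivity)
      calc 614400 * (p : ℝ) ^ 2 * t ≤ Real.exp (-1) * (40000 ^ 3 * L ^ 6) * t := h8.trans h9
        _ = Real.exp (-1) * t * (40000 ^ 3 * L ^ 6) := by ring
    have h4 : (614400 * (p : ℝ) ^ 2 * ((z1.im)⁻¹ * (n : ℝ)⁻¹) / u.im) ^ p ≤
        Real.exp (-1) ^ p := pow_le_pow_left₀ (by positivity) h3 p
    refine h4.trans ?_
    rw [← Real.exp_nat_mul, Real.exp_le_exp]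
    linarith
  have h24 : 24 ≤ (n : ℝ) * t ^ 3 := by
    rw [hnt]
    have : (1 : ℝ) ≤ L ^ 6 := one_le_pow₀ hL1
    linarith
  have h0 := low_Z_log n hn
  rw [← hL] at h0
  have h3 := fixed ht ht1 hn1 u z z1 huim hnu hnd' hu1 hus hz1 hz1z hzim h24
    (fun g x => by rw [hz1z]; exact q_plant hn0 z hzp g x) (s := 2000 * L ^ 3) h0 (h1.trans h2)
  rw [hnt] at h3
  refine h3.trans ?_
  have h4 : Real.exp (2000 * L ^ 3) * Real.exp (-(4000 * L ^ 3)) =
      Real.exp (-(2000 * L ^ 3)) := by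
    rw [← Real.exp_add]
    congr 1
    ring
  rw [h4]

/-- The gap at the critical point is at most `C (log n) ^ 4 n ^ (-2/3)`. -/
theorem gap_log : WHP (fun n => {g | gap (skJ 1 g) (fun _ => 0) ≤
    160000000000 * Real.log n ^ 4 * (n : ℝ) ^ (-(2 / 3) : ℝ)}) := by
  have hcast : Tendsto (fun n : ℕ => (n : ℝ)) atTop atTop := tendsto_natCast_atTop_atTop
  have hlog : Tendsto (fun n : ℕ => Real.log n) atTop atTop := Real.tendsto_log_atTop.comp hcast
  have hreal : Tendsto (fun n : ℕ => (disorder n).real {g | gap (skJ 1 g) (fun _ => 0) ≤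
      160000000000 * Real.log n ^ 4 * (n : ℝ) ^ (-(2 / 3) : ℝ)}ᶜ) atTop (𝓝 0) := by
    have hrhs : Tendsto (fun n : ℕ => 2 * (1 / Real.log n ^ 2 +
        Real.exp (-(2000 * Real.log n ^ 3))) +
        64 * (40000 ^ 3 * Real.log n ^ 6)⁻¹ ^ 2) atTop (𝓝 0) := by
      have t1 : Tendsto (fun n : ℕ => 1 / Real.log n ^ 2) atTop (𝓝 0) := by
        simp only [one_div]
        exact tendsto_inv_atTop_zero.comp ((tendsto_pow_atTop two_ne_zero).comp hlog)
      have t2 : Tendsto (fun n : ℕ => Real.exp (-(2000 * Real.log n ^ 3))) atTop (𝓝 0) :=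
        Real.tendsto_exp_neg_atTop_nhds_zero.comp
          (((tendsto_pow_atTop three_ne_zero).comp hlog).const_mul_atTop (by norm_num))
      have t3 : Tendsto (fun n : ℕ => (40000 ^ 3 * Real.log n ^ 6)⁻¹) atTop (𝓝 0) :=
        tendsto_inv_atTop_zero.comp (((tendsto_pow_atTop (by norm_num : (6 : ℕ) ≠ 0)).comp
          hlog).const_mul_atTop (by norm_num))
      have h1 := ((t1.add t2).const_mul 2).add ((t3.pow 2).const_mul 64)
      simpa using h1
    have hsmall : ∀ᶠ n : ℕ in atTop,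
        40000 * Real.log n ^ 2 * (n : ℝ) ^ (-(1 / 3) : ℝ) ≤ 1 / 4 := by
      have h1 : Tendsto (fun x : ℝ => Real.log x ^ 2 * x ^ (-(1 / 3) : ℝ)) atTop (𝓝 0) := by
        have h2 := (isLittleO_log_rpow_atTop (show (0 : ℝ) < 1 / 12 by norm_num))
        have h3 : Tendsto (fun x : ℝ => Real.log x / x ^ (1 / 12 : ℝ)) atTop (𝓝 0) :=
          h2.tendsto_div_nhds_zero
        have h4 : Tendsto (fun x : ℝ => x ^ (-(1 / 6) : ℝ)) atTop (𝓝 0) :=
          tendsto_rpow_neg_atTop (by norm_num)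
        have h5 := (h3.pow 2).mul h4
        simp only [zero_pow two_ne_zero, zero_mul] at h5
        refine h5.congr' ?_
        filter_upwards [eventually_gt_atTop 0] with x hx
        have e1 : x ^ (-(1 / 3) : ℝ) = (x ^ (1 / 12 : ℝ))⁻¹ ^ 2 * x ^ (-(1 / 6) : ℝ) := by
          rw [← Real.rpow_neg hx.le, ← Real.rpow_natCast, ← Real.rpow_mul hx.le,
            ← Real.rpow_add hx]
          norm_num
        rw [e1, div_eq_mul_inv, mul_pow]
        ring
      have h2 := (h1.comp hcast).const_mul (40000 : ℝ)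
      simp only [mul_zero] at h2
      filter_upwards [h2.eventually_le_const (show (0 : ℝ) < 1 / 4 by norm_num)] with n hn
      have h3 : 40000 * (Real.log n ^ 2 * (n : ℝ) ^ (-(1 / 3) : ℝ)) ≤ 1 / 4 := hn
      linarith
    refine tendsto_of_tendsto_of_tendsto_of_le_of_le' tendsto_const_nhds hrhs
      (Eventually.of_forall fun n => measureReal_nonneg) ?_
    filter_upwards [eventually_ge_atTop 784, hsmall] with n hn hsm
    have hnr : (784 : ℝ) ≤ n := by exact_mod_cast hn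
    have hn' : (0 : ℝ) < n := by linarith
    obtain ⟨L, hL⟩ : ∃ L, L = Real.log n := ⟨_, rfl⟩
    have hL1 : 1 ≤ L := by
      rw [hL, Real.le_log_iff_exp_le hn']
      have := Real.exp_one_lt_d9
      linarith
    have hL0 : 0 < L := by linarith
    rw [← hL] at hsm ⊢
    obtain ⟨t, ht⟩ : ∃ t, t = 40000 * L ^ 2 * (n : ℝ) ^ (-(1 / 3) : ℝ) := ⟨_, rfl⟩
    have hr0 : 0 < (n : ℝ) ^ (-(1 / 3) : ℝ) := Real.rpow_pos_of_pos hn' _
    have ht0 : 0 < t := by rw [ht]; positivity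
    rw [← ht] at hsm
    have hr3 : ((n : ℝ) ^ (-(1 / 3) : ℝ)) ^ 3 = (n : ℝ)⁻¹ := by
      rw [← Real.rpow_natCast, ← Real.rpow_mul hn'.le, ← Real.rpow_neg_one]
      norm_num
    have hr2 : ((n : ℝ) ^ (-(1 / 3) : ℝ)) ^ 2 = (n : ℝ) ^ (-(2 / 3) : ℝ) := by
      rw [← Real.rpow_natCast, ← Real.rpow_mul hn'.le]
      norm_num
    have hnt : (n : ℝ) * t ^ 3 = 40000 ^ 3 * L ^ 6 := by
      rw [ht]
      have e : (n : ℝ) * (40000 * L ^ 2 * (n : ℝ) ^ (-(1 / 3) : ℝ)) ^ 3 =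
          40000 ^ 3 * L ^ 6 * (n * ((n : ℝ) ^ (-(1 / 3) : ℝ)) ^ 3) := by ring
      rw [e, hr3, mul_inv_cancel₀ hn'.ne', mul_one]
    have ht2 : 100 * t ^ 2 = 160000000000 * L ^ 4 * (n : ℝ) ^ (-(2 / 3) : ℝ) := by
      rw [ht, ← hr2]
      ring
    have := prob_disorder n
    refine le_trans (measureReal_mono ?_) (prob_log n hn hL ht0 hsm hnt)
    intro g hg
    have hg' : ¬ (gap (skJ 1 g) (fun _ => 0) ≤
      160000000000 * L ^ 4 * (n : ℝ) ^ (-(2 / 3) : ℝ)) := hg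
    show 100 * t ^ 2 ≤ gap (skJ 1 g) (fun _ => 0)
    rw [ht2]
    exact (not_le.1 hg').le
  have h := ENNReal.tendsto_ofReal hreal
  rw [ENNReal.ofReal_zero] at h
  unfold WHP
  refine h.congr fun n => ?_
  have := prob_disorder n
  exact ENNReal.ofReal_toReal (measure_ne_top _ _)

/-- Slow mixing at the critical point, logarithmic version. -/
theorem crit_log : ∃ C : ℝ, 0 < C ∧ WHP (fun n => {g |
      gap (skJ 1 g) (fun _ => 0) ≤ C * Real.log n ^ 4 * (n : ℝ) ^ (-(2 / 3) : ℝ) ∧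
      Real.log 2 * ((n : ℝ) ^ (2 / 3 : ℝ) / (C * Real.log n ^ 4)) ≤
        tmix (skJ 1 g) (fun _ => 0) ∧
      ∀ t, 0 ≤ t → ∃ x,
        Real.exp (-(C * Real.log n ^ 4 * (n : ℝ) ^ (-(2 / 3) : ℝ) * t)) / 2 ≤
          tvDist (skJ 1 g) (fun _ => 0) t x}) := by
  refine ⟨160000000000, by norm_num, MainThm.whp_mono gap_log ?_⟩
  filter_upwards [eventually_ge_atTop 784] with n hn
  intro g hg
  have hn0 : 0 < n := by omega
  have hnr : (784 : ℝ) ≤ n := by exact_mod_cast hn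
  have hn' : (0 : ℝ) < n := by linarith
  have hL0 : 0 < Real.log n := Real.log_pos (by linarith)
  have hg' : gap (skJ 1 g) (fun _ => 0) ≤
    160000000000 * Real.log n ^ 4 * (n : ℝ) ^ (-(2 / 3) : ℝ) := hg
  have hr0 : 0 < (n : ℝ) ^ (-(2 / 3) : ℝ) := Real.rpow_pos_of_pos hn' _
  have hp : 0 < 160000000000 * Real.log n ^ 4 * (n : ℝ) ^ (-(2 / 3) : ℝ) := by positivity
  refine ⟨hg', ?_, fun t ht => H185.exists_tv_ge hn0 (Asm.skJ_symm 1 g) (fun _ => 0) hg' t ht⟩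
  have h5 := tmix_ge hn0 (Vale.Agent.P150.H185.Crit.skJ_symm 1 g) (fun _ => 0)
    (a := 160000000000 * Real.log n ^ 4 * (n : ℝ) ^ (-(2 / 3) : ℝ)) hp hg'
  refine le_trans (le_of_eq ?_) h5
  rw [Real.rpow_neg hn'.le]
  field_simp

end Vale.Agent.P150.H357.Cr
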